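import Vale.Agent.Lib.P348.helper23.Basics

/-!
P348, pool job K2 (copy by helper17), core: the commutator of the ring Hamiltonian with the
raising operator at one site, applied to a vector, has squared norm at most 32 times the squared
norm of the vector, given the two one-site bounds of job K3 as hypotheses (`nsq_comm_le_of`), and
the formula for the commutator (`comm_formula`).
-/

namespace Vale.Agent.Lib.P348.H17

open Matrix

open Vale.Agent.Lib.P361 Vale.Agent.Lib.P348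

/-- The squared norm of a signed sum of four vectors. -/
theorem nsq_four {n : Type*} [Fintype n] (a b c d : n → ℂ) :
    nsq (a - b - (c - d)) ≤ 4 * (nsq a + nsq b + nsq c + nsq d) := by
  rw [nsq_def, nsq_def, nsq_def, nsq_def, nsq_def, ← Finset.sum_add_distrib,
    ← Finset.sum_add_distrib, ← Finset.sum_add_distrib, Finset.mul_sum]
  refine Finset.sum_le_sum fun σ _ => ?_
  have h : ‖(a - b - (c - d)) σ‖ ≤ ‖a σ‖ + ‖b σ‖ + ‖c σ‖ + ‖d σ‖ := by
    simp only [Pi.sub_apply]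
    calc ‖a σ - b σ - (c σ - d σ)‖ ≤ ‖a σ - b σ‖ + ‖c σ - d σ‖ := norm_sub_le _ _
      _ ≤ (‖a σ‖ + ‖b σ‖) + (‖c σ‖ + ‖d σ‖) :=
          add_le_add (norm_sub_le _ _) (norm_sub_le _ _)
      _ = ‖a σ‖ + ‖b σ‖ + ‖c σ‖ + ‖d σ‖ := by ring
  have h0 := norm_nonneg ((a - b - (c - d)) σ)
  have h1 := pow_le_pow_left₀ h0 h 2
  nlinarith [sq_nonneg (‖a σ‖ - ‖b σ‖), sq_nonneg (‖a σ‖ - ‖c σ‖), sq_nonneg (‖a σ‖ - ‖d σ‖),
    sq_nonneg (‖b σ‖ - ‖c σ‖), sq_nonneg (‖b σ‖ - ‖d σ‖), sq_nonneg (‖c σ‖ - ‖d σ‖)]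

/-- The commutator of the ring Hamiltonian with the raising operator at the site `j`. -/
theorem comm_formula {L : ℕ} (j : Fin L) :
    ringH L * raise j - raise j * ringH L
      = Fop (cSp 3) (cSz 3) ((finRotate L).symm j) j
        - Fop (cSp 3) (cSz 3) j (finRotate L j) := by
  have hS := spinSys (Λ := Fin L) 3
  have hraise : raise j = Cop (cSp (Λ := Fin L) 3) (Pi.single j 1) := by
    rw [raise_def]
    show siteOp j (spinPlus 3) = ∑ w, (Pi.single j (1 : ℂ) : Fin L → ℂ) w • cSp 3 w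
    rw [Finset.sum_eq_single j]
    · rw [Pi.single_eq_same, one_smul]
      rfl
    · intro w _ hw
      rw [Pi.single_eq_of_ne hw, zero_smul]
    · intro h
      exact absurd (Finset.mem_univ j) h
  have hH : ringH L = -(Hab (cSp 3) (cSz 3) (fun _ : Fin L => True) id (finRotate L)) := by
    rw [defs_aux_ringH]
    show _ = -(-∑ i, if True then bond (cSp 3) (cSz 3) (id i) (finRotate L i) else 0)
    rw [neg_neg]
    refine Finset.sum_congr rfl fun i _ => ?_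
    rw [if_pos trivial, spinDot_eq_bond]
    rfl
  have hcm := hS.cm_C_H (fun _ : Fin L => True) id (finRotate L) (Pi.single j 1)
  have hneg : ∀ (r X : Matrix (Fin L → Fin 3) (Fin L → Fin 3) ℂ),
      -X * r - r * -X = cm r X := by
    intro r X
    show -X * r - r * -X = r * X - X * r
    rw [Matrix.neg_mul, Matrix.mul_neg]
    abel
  have hsum1 : ∀ G : Fin L → Matrix (Fin L → Fin 3) (Fin L → Fin 3) ℂ,
      ∑ i, (Pi.single j (1 : ℂ) : Fin L → ℂ) i • G i = G j := by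
    intro G
    rw [Finset.sum_eq_single j]
    · rw [Pi.single_eq_same, one_smul]
    · intro w _ hw
      rw [Pi.single_eq_of_ne hw, zero_smul]
    · intro h
      exact absurd (Finset.mem_univ j) h
  have hsum2 : ∑ i, (Pi.single j (1 : ℂ) : Fin L → ℂ) (finRotate L i)
        • Fop (cSp 3) (cSz 3) i (finRotate L i)
      = Fop (cSp 3) (cSz 3) ((finRotate L).symm j) j := by
    have h := Equiv.sum_comp (finRotate L) (fun k => (Pi.single j (1 : ℂ) : Fin L → ℂ) k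
      • Fop (cSp 3) (cSz 3) ((finRotate L).symm k) k)
    simp only [Equiv.symm_apply_apply] at h
    rw [h, hsum1]
  rw [hH, hraise, hneg, hcm]
  have hterm : ∀ i : Fin L, (if True then
        ((Pi.single j (1 : ℂ) : Fin L → ℂ) (id i) - (Pi.single j (1 : ℂ) : Fin L → ℂ)
          (finRotate L i)) • Fop (cSp 3) (cSz 3) (id i) (finRotate L i) else 0)
      = (Pi.single j (1 : ℂ) : Fin L → ℂ) i • Fop (cSp 3) (cSz 3) i (finRotate L i)
        - (Pi.single j (1 : ℂ) : Fin L → ℂ) (finRotate L i)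
          • Fop (cSp 3) (cSz 3) i (finRotate L i) := by
    intro i
    rw [if_pos trivial, sub_smul]
    rfl
  rw [Finset.sum_congr rfl (fun i _ => hterm i), Finset.sum_sub_distrib, hsum2,
    hsum1 (fun i => Fop (cSp 3) (cSz 3) i (finRotate L i)), neg_sub]

/-- The bound, given the two one-site bounds (job K3). -/
theorem nsq_comm_le_of {L : ℕ}
    (hr : ∀ (j : Fin L) (ψ : (Fin L → Fin 3) → ℂ), nsq (raise j *ᵥ ψ) ≤ 2 * nsq ψ)
    (hz : ∀ (j : Fin L) (ψ : (Fin L → Fin 3) → ℂ),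
      nsq (siteOp j (spinZ 3) *ᵥ ψ) ≤ nsq ψ)
    (j : Fin L) (Ω : (Fin L → Fin 3) → ℂ) :
    nsq ((ringH L * raise j - raise j * ringH L) *ᵥ Ω) ≤ 32 * nsq Ω := by
  have hr' : ∀ (i : Fin L) (ψ : (Fin L → Fin 3) → ℂ), nsq (cSp 3 i *ᵥ ψ) ≤ 2 * nsq ψ := by
    intro i ψ
    have h := hr i ψ
    rw [raise_def] at h
    exact h
  have hz' : ∀ (i : Fin L) (ψ : (Fin L → Fin 3) → ℂ), nsq (cSz 3 i *ᵥ ψ) ≤ nsq ψ :=
    fun i ψ => hz i ψ
  have hzp : ∀ (a b : Fin L), nsq (cSz 3 a *ᵥ (cSp 3 b *ᵥ Ω)) ≤ 2 * nsq Ω :=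
    fun a b => le_trans (hz' a _) (hr' b Ω)
  have hpz : ∀ (a b : Fin L), nsq (cSp 3 a *ᵥ (cSz 3 b *ᵥ Ω)) ≤ 2 * nsq Ω := by
    intro a b
    have h1 := hr' a (cSz 3 b *ᵥ Ω)
    have h2 := hz' b Ω
    linarith
  have hF : ∀ (a b : Fin L), Fop (cSp 3) (cSz 3) a b *ᵥ Ω
      = cSz 3 a *ᵥ (cSp 3 b *ᵥ Ω) - cSp 3 a *ᵥ (cSz 3 b *ᵥ Ω) := by
    intro a b
    show (cSz 3 a * cSp 3 b - cSp 3 a * cSz 3 b) *ᵥ Ω = _
    rw [Matrix.sub_mulVec, Matrix.mulVec_mulVec, Matrix.mulVec_mulVec]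
  rw [comm_formula j, Matrix.sub_mulVec, hF, hF]
  have h4 := nsq_four (cSz 3 ((finRotate L).symm j) *ᵥ (cSp 3 j *ᵥ Ω))
    (cSp 3 ((finRotate L).symm j) *ᵥ (cSz 3 j *ᵥ Ω))
    (cSz 3 j *ᵥ (cSp 3 (finRotate L j) *ᵥ Ω)) (cSp 3 j *ᵥ (cSz 3 (finRotate L j) *ᵥ Ω))
  have e1 := hzp ((finRotate L).symm j) j
  have e2 := hpz ((finRotate L).symm j) j
  have e3 := hzp j (finRotate L j)
  have e4 := hpz j (finRotate L j)
  linarith

end Vale.Agent.Lib.P348.H17
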