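import Vale.Agent.Lib.P348.helper23.Basics
import Vale.Agent.Lib.P348.helper17.CommCore

/-!
P348, pool job K2 (copy by helper17): the commutator of the ring Hamiltonian with the raising
operator at one site, applied to a vector, has squared norm at most 32 times the squared norm of
the vector. The two one-site bounds of job K3 are proved here as well (own copies).
-/

namespace Vale.Agent.Lib.P348.H17

open Matrix

open Vale.Agent.Lib.P361 Vale.Agent.Lib.P348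

/-- The squared norm of `A ψ` is the real part of `⟨ψ, Aᴴ A ψ⟩`. -/
theorem nsq_mulVec {n : Type*} [Fintype n] (A : Matrix n n ℂ) (ψ : n → ℂ) :
    (nsq (A *ᵥ ψ) : ℂ) = star ψ ⬝ᵥ ((Aᴴ * A) *ᵥ ψ) := by
  have h1 : star ψ ⬝ᵥ ((Aᴴ * A) *ᵥ ψ) = star (A *ᵥ ψ) ⬝ᵥ (A *ᵥ ψ) := by
    rw [Matrix.star_mulVec, ← Matrix.mulVec_mulVec, Matrix.dotProduct_mulVec]
  rw [h1, nsq_def]
  push_cast
  refine Finset.sum_congr rfl fun σ _ => ?_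
  rw [Pi.star_apply, Complex.star_def, ← Complex.normSq_eq_conj_mul_self, Complex.normSq_eq_norm_sq]
  push_cast
  rfl

theorem nsq_siteZ_le {L : ℕ} (j : Fin L) (ψ : (Fin L → Fin 3) → ℂ) :
    nsq (siteOp j (spinZ 3) *ᵥ ψ) ≤ nsq ψ := by
  have e : siteOp j (spinZ 3) = diagonal fun σ : Fin L → Fin 3 =>
      (((((3 : ℕ) : ℝ) - 1) / 2 - ((σ j : ℕ) : ℝ) : ℝ) : ℂ) := by
    show siteOp j (diagonal fun i : Fin 3 =>
      (((((3 : ℕ) : ℝ) - 1) / 2 - ((i : ℕ) : ℝ) : ℝ) : ℂ)) = _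
    rw [siteOp_diagonal]
  rw [e, nsq_def, nsq_def]
  refine Finset.sum_le_sum fun σ _ => ?_
  rw [Matrix.mulVec_diagonal, norm_mul, mul_pow]
  have hle : ‖((((((3 : ℕ) : ℝ) - 1) / 2 - ((σ j : ℕ) : ℝ) : ℝ)) : ℂ)‖ ≤ 1 := by
    rw [Complex.norm_real, Real.norm_eq_abs, abs_le]
    have h1 : ((σ j : ℕ) : ℝ) ≤ 2 := by
      have h := (σ j).isLt
      exact_mod_cast Nat.lt_succ_iff.mp h
    have h0 : (0 : ℝ) ≤ ((σ j : ℕ) : ℝ) := Nat.cast_nonneg _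
    have h3 : (((3 : ℕ) : ℝ) - 1) / 2 = 1 := by norm_num
    rw [h3]
    constructor
    · linarith
    · linarith
  have hsq : ‖((((((3 : ℕ) : ℝ) - 1) / 2 - ((σ j : ℕ) : ℝ) : ℝ)) : ℂ)‖ ^ 2 ≤ 1 :=
    pow_le_one₀ (norm_nonneg _) hle
  calc ‖((((((3 : ℕ) : ℝ) - 1) / 2 - ((σ j : ℕ) : ℝ) : ℝ)) : ℂ)‖ ^ 2 * ‖ψ σ‖ ^ 2
      ≤ 1 * ‖ψ σ‖ ^ 2 := mul_le_mul_of_nonneg_right hsq (sq_nonneg _)
    _ = ‖ψ σ‖ ^ 2 := one_mul _

theorem nsq_raise_le {L : ℕ} (j : Fin L) (ψ : (Fin L → Fin 3) → ℂ) :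
    nsq (raise j *ᵥ ψ) ≤ 2 * nsq ψ := by
  have e : (raise j)ᴴ * raise j = diagonal fun σ : Fin L → Fin 3 =>
      ((((σ j : ℕ) : ℝ) * (((3 : ℕ) : ℝ) - ((σ j : ℕ) : ℝ)) : ℝ) : ℂ) := by
    rw [raise_def, siteOp_conjTranspose, siteOp_mul]
    have h := spinMinus_mul_spinPlus 3
    have h' : (spinPlus 3)ᴴ * spinPlus 3 = diagonal fun i : Fin 3 =>
        ((((i : ℕ) : ℝ) * (((3 : ℕ) : ℝ) - ((i : ℕ) : ℝ)) : ℝ) : ℂ) := h
    rw [h', siteOp_diagonal]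
  have hc := nsq_mulVec (raise j) ψ
  rw [e] at hc
  have hre : nsq (raise j *ᵥ ψ)
      = ∑ σ : Fin L → Fin 3, (((σ j : ℕ) : ℝ) * (((3 : ℕ) : ℝ) - ((σ j : ℕ) : ℝ)))
          * ‖ψ σ‖ ^ 2 := by
    have h2 : star ψ ⬝ᵥ ((diagonal fun σ : Fin L → Fin 3 =>
          ((((σ j : ℕ) : ℝ) * (((3 : ℕ) : ℝ) - ((σ j : ℕ) : ℝ)) : ℝ) : ℂ)) *ᵥ ψ)
        = ((∑ σ : Fin L → Fin 3, (((σ j : ℕ) : ℝ) * (((3 : ℕ) : ℝ) - ((σ j : ℕ) : ℝ)))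
          * ‖ψ σ‖ ^ 2 : ℝ) : ℂ) := by
      rw [dotProduct]
      push_cast
      refine Finset.sum_congr rfl fun σ _ => ?_
      rw [Matrix.mulVec_diagonal, Pi.star_apply, Complex.star_def]
      have h3 : (starRingEnd ℂ) (ψ σ) * ψ σ = ((‖ψ σ‖ ^ 2 : ℝ) : ℂ) := by
        rw [← Complex.normSq_eq_conj_mul_self, Complex.normSq_eq_norm_sq]
      calc (starRingEnd ℂ) (ψ σ) * (((σ j : ℕ) : ℂ) * (((3 : ℕ) : ℂ) - ((σ j : ℕ) : ℂ)) * ψ σ)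
          = ((σ j : ℕ) : ℂ) * (((3 : ℕ) : ℂ) - ((σ j : ℕ) : ℂ))
            * ((starRingEnd ℂ) (ψ σ) * ψ σ) := by ring
        _ = _ := by
            rw [h3]
            push_cast
            ring
    rw [h2] at hc
    exact_mod_cast hc
  rw [hre, nsq_def, Finset.mul_sum]
  refine Finset.sum_le_sum fun σ _ => ?_
  have hb : ((σ j : ℕ) : ℝ) * (((3 : ℕ) : ℝ) - ((σ j : ℕ) : ℝ)) ≤ 2 := by
    have h := (σ j).isLt
    have hcases : (σ j : ℕ) = 0 ∨ (σ j : ℕ) = 1 ∨ (σ j : ℕ) = 2 := by omega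
    rcases hcases with h0 | h0 | h0 <;> rw [h0] <;> norm_num
  exact mul_le_mul_of_nonneg_right hb (sq_nonneg _)

theorem nsq_comm_le {L : ℕ} (j : Fin L) (Ω : (Fin L → Fin 3) → ℂ) :
    nsq ((ringH L * raise j - raise j * ringH L) *ᵥ Ω) ≤ 32 * nsq Ω :=
  nsq_comm_le_of nsq_raise_le nsq_siteZ_le j Ω

end Vale.Agent.Lib.P348.H17
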